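import Vale.Agent.P031.H928.Thin

/-!
# P031: the asymptotic formula with its exceptional sets
-/

set_option linter.all false

namespace Vale.Agent.P031.KA

open Finset Filter Topology

/-- the asymptotic formula, for every large constant `C₀`, with the count of the totients outside
the main term and the comparison of `x / log x` with `V x` -/
theorem approx2 : ∃ C₁ : ℝ, 1 ≤ C₁ ∧ ∃ Cv : ℝ, 0 < Cv ∧ ∀ C₀ : ℝ, C₁ ≤ C₀ → ∀ ε : ℝ, 0 < ε →
    ∀ᶠ M : ℕ in atTop, ∀ (x T : ℝ), 3 ≤ x →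
    |ll x - (M : ℝ) ^ 15 - T| ≤ 1 → 1 / 2 * (M : ℝ) ^ 20 ≤ T → T ≤ 41 / 20 * (M : ℝ) ^ 20 →
    |(V x : ℝ) - ∑ D ∈ DF M 0 1 (T - C₀ * (M : ℝ) ^ 18), pc1 (x / (D : ℝ))| ≤ ε * V x ∧
    x / Real.log x ≤ Cv * V x ∧
    ∀ s : Finset ℕ, (∀ v ∈ s, (v : ℝ) ≤ x ∧ v ∈ DD M 0 ∧ ¬ ∃ p D : ℕ, p.Prime ∧
      D ∈ DF M 0 1 (T - C₀ * (M : ℝ) ^ 18) ∧ v = (p - 1) * D) → (s.card : ℝ) ≤ ε * V x := by
  classical
  have hU : UpP := up
  have hL : LowP := low_of np_mass (col_use_mass_of (cl_mass_of cl_count))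
  have hV : VLowP := v_low_of np_count cl_count
  have hG : VGrowthP := J3.v_growth_of th
  have hTh : ThP := th
  obtain ⟨Cs, hCs, hsharp⟩ := v_low_sharp_of np_count cl_count
  obtain ⟨Cb, hCb, hbad⟩ := v_bad
  obtain ⟨Cv, hCv, hv⟩ := hV 0
  refine ⟨max 1 Cs, le_max_left _ _, Cv, hCv, fun C₀ hC₀ ε hε => ?_⟩
  have hC1 : 1 ≤ C₀ := (le_max_left _ _).trans hC₀
  have hCsC : Cs ≤ C₀ := (le_max_right _ _).trans hC₀
  have hC0 : 0 < C₀ := by linarith
  have hδ : ∃ δ : ℝ, 0 < δ ∧ δ ≤ 1 / 2 ∧ δ ≤ ε / 4 := ⟨min (1 / 2) (ε / 4), by positivity,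
    min_le_left _ _, min_le_right _ _⟩
  obtain ⟨δ, hδ0, hδ1, hδ2⟩ := hδ
  have hexpM : ∀ᶠ M : ℕ in atTop, Cv * (Real.exp (-(M : ℝ) ^ 2) + Real.exp (-(M : ℝ))) ≤ δ := by
    have h1 : Tendsto (fun M : ℕ => Real.exp (-(M : ℝ))) atTop (𝓝 0) :=
      Real.tendsto_exp_neg_atTop_nhds_zero.comp tendsto_natCast_atTop_atTop
    have h2 : ∀ᶠ M : ℕ in atTop, Real.exp (-(M : ℝ)) < δ / (2 * Cv) :=
      h1.eventually_lt_const (by positivity)
    filter_upwards [h2, eventually_ge_atTop 1] with M h2 hM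
    have hM1 : (1 : ℝ) ≤ M := by exact_mod_cast hM
    have h3 : Real.exp (-(M : ℝ) ^ 2) ≤ Real.exp (-(M : ℝ)) := by
      apply Real.exp_le_exp.2
      (by_contra nlg; linarith only [nlg, mul_pos (sub_pos.2 (not_le.1 nlg)) (sub_pos.2 (not_le.1 nlg)), mul_nonneg (sq_nonneg (↑M : ℝ)) (sub_nonneg.2 hM1), mul_nonneg (sq_nonneg (↑M : ℝ)) (le_of_lt (sub_pos.2 (not_le.1 nlg)))])
    have h4 : Cv * (δ / (2 * Cv)) = δ / 2 := by field_simp
    nlinarith only [hCv, h3, h2, h4]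
  filter_upwards [hsharp δ hδ0, hbad, hv, reg hU hL hV hG (Cb * C₀) δ (by positivity) hδ0, hTh, hexpM,
    ev_pow_le C₀ (1 / 100) (by norm_num) 18, ev_pow_le Cv (1 / 100) (by norm_num) 18,
    ev_pow_le 1 (1 / 100) (by norm_num) 18,
    ev_pow_le 1 (1 / 100) (by norm_num) 19, eventually_ge_atTop 1] with
    M hsharp hbad hv hreg hth hexpM e1 e2 e3 e4 hM x T hx hxT hT1 hT2
  have hM1 : (1 : ℝ) ≤ M := by exact_mod_cast hM
  norm_num at e1 e2 e3 e4
  obtain ⟨hxT1, hxT2⟩ := abs_le.1 hxT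
  have h15 : 1 ≤ (M : ℝ) ^ 15 := one_le_pow₀ hM1
  have h18 : 1 ≤ (M : ℝ) ^ 18 := one_le_pow₀ hM1
  have h1518 : (M : ℝ) ^ 15 ≤ (M : ℝ) ^ 18 := pow_le_pow_right₀ hM1 (by norm_num)
  have h1618 : (M : ℝ) ^ 16 ≤ (M : ℝ) ^ 18 := pow_le_pow_right₀ hM1 (by norm_num)
  have hlogx : 0 < Real.log x := Real.log_pos (by linarith only [hx])
  have hxl : 0 < x / Real.log x := div_pos (by linarith only [hx]) hlogx
  have hV0 : (0 : ℝ) ≤ V x := Nat.cast_nonneg _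
  have hCsm : 0 < Cs * (M : ℝ) ^ 18 := by positivity
  have hCvm : 0 < Cv * (M : ℝ) ^ 18 := by positivity
  have hC0m : (M : ℝ) ^ 18 ≤ C₀ * (M : ℝ) ^ 18 := by linarith only [mul_nonneg (sub_nonneg.2 hC1) (sub_nonneg.2 h18), hC1]
  set S : ℝ := ∑ D ∈ DF M 0 1 (T - C₀ * (M : ℝ) ^ 18), pc1 (x / (D : ℝ)) with hS
  have hS0 : 0 ≤ S := Finset.sum_nonneg fun _ _ => pc1_nonneg _
  -- lower bound
  have hlow : (1 - δ) * S ≤ V x := by
    refine le_trans ?_ (hsharp x T hx hxT hT1 (by linarith only [hT2, e4, e3, h18]))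
    refine mul_le_mul_of_nonneg_left ?_ (by linarith only [hδ1])
    rw [hS]
    refine (Finset.sum_le_sum_of_subset_of_nonneg (DF_mono (M := M) (r := 0) (j := 1)
        (T' := T - Cs * (M : ℝ) ^ 18) ?_)
      fun _ _ _ => pc1_nonneg _).trans (le_of_eq ?_)
    · have : Cs * (M : ℝ) ^ 18 ≤ C₀ * (M : ℝ) ^ 18 := by gcongr
      linarith only [this]
    · refine Finset.sum_congr rfl fun D _ => ?_
      rw [pc1, Nat.floor_add_one (by positivity)]
  -- V x is at least of order x / log x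
  have hxV : x / Real.log x ≤ Cv * V x := by
    have h1 := hv 0 x le_rfl hx (by linarith only [e4, e3, hxT1, h18, h15, hT1]) (by linarith only [hxT2, hT2, h1518, e4, e3, h18])
    have h2 := one_le_FF M 0 (ll x - Cv * (M : ℝ) ^ 18) (by linarith only [e4, e3, e2, hxT1, h18, h15, hT1])
    calc x / Real.log x = x / Real.log x * 1 := by ring
      _ ≤ x / Real.log x * FF M 0 1 0 (ll x - Cv * (M : ℝ) ^ 18) := by gcongr
      _ ≤ _ := h1
  -- upper bound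
  set s := (Finset.Icc 1 ⌊x⌋₊).filter IsTot with hs
  have hVs : (V x : ℝ) = s.card := by rw [V_eq_card x (by linarith only [hx])]
  set A := s.filter (fun v => v ∉ DD M 0) with hAdef
  set B := (s.filter (fun v => v ∈ DD M 0)).filter (fun v => ¬ ∃ p D : ℕ, p.Prime ∧
    D ∈ DF M 0 1 (T - C₀ * (M : ℝ) ^ 18) ∧ v = (p - 1) * D) with hBdef
  set C := (s.filter (fun v => v ∈ DD M 0)).filter (fun v => ∃ p D : ℕ, p.Prime ∧
    D ∈ DF M 0 1 (T - C₀ * (M : ℝ) ^ 18) ∧ v = (p - 1) * D) with hCdef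
  have hmem : ∀ v ∈ s, IsTot v ∧ (v : ℝ) ≤ x := by
    intro v hv
    simp only [hs, Finset.mem_filter, Finset.mem_Icc] at hv
    exact ⟨hv.2, (Nat.le_floor_iff (by linarith only [hx])).1 hv.1.2⟩
  have hcard : (s.card : ℝ) ≤ A.card + B.card + C.card := by
    have h1 : s ⊆ A ∪ B ∪ C := by
      intro v hv
      simp only [hAdef, hBdef, hCdef, Finset.mem_union, Finset.mem_filter]
      tauto
    have h2 := (Finset.card_le_card h1).trans (Finset.card_union_le _ _)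
    have h3 := Finset.card_union_le A B
    exact_mod_cast h2.trans (Nat.add_le_add_right h3 _)
  have hA : (A.card : ℝ) ≤ x / Real.log x * Real.exp (-(M : ℝ) ^ 2) := by
    refine hth x A hx (by linarith only [hT1, h15, h18, hxT1, e3, e4, h1618]) (by linarith only [hxT2, hT2, h1518, e4, e3, h18]) fun v hv => ?_
    simp only [hAdef, Finset.mem_filter] at hv
    exact ⟨(hmem v hv.1).1, (hmem v hv.1).2, hv.2⟩
  have hB : (B.card : ℝ) ≤ x / Real.log x * (Cb * (C₀ * (M : ℝ) ^ 18) *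
      FF M 0 2 0 (T + Cb * (C₀ * (M : ℝ) ^ 18)) + Real.exp (-(M : ℝ))) := by
    refine hbad (C₀ * (M : ℝ) ^ 18) x T B hx hC0m (by linarith only [e1, e3, h18]) hxT hT1 (by linarith only [hT2, e4, e3, h18])
      fun v hv => ?_
    simp only [hBdef, Finset.mem_filter] at hv
    refine ⟨(hmem v hv.1.1).2, hv.1.2, fun p D h1 h2 _ h4 => hv.2 ⟨p, D, h2, h4, h1⟩⟩
  have hC : (C.card : ℝ) ≤ S := by
    refine card_repr_le x _ _ (fun D hD => mem_DF_pos hD) fun v hv => ?_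
    simp only [hCdef, Finset.mem_filter] at hv
    exact ⟨(hmem v hv.1.1).2, hv.2⟩
  have hreg' := hreg x T hx hxT hT1 hT2
  rw [mul_assoc Cb C₀] at hreg'
  have hsmallV : x / Real.log x * Real.exp (-(M : ℝ) ^ 2) + x / Real.log x * Real.exp (-(M : ℝ)) ≤
      δ * V x := by
    calc x / Real.log x * Real.exp (-(M : ℝ) ^ 2) + x / Real.log x * Real.exp (-(M : ℝ))
        = x / Real.log x * (Real.exp (-(M : ℝ) ^ 2) + Real.exp (-(M : ℝ))) := by ring
      _ ≤ (Cv * V x) * (Real.exp (-(M : ℝ) ^ 2) + Real.exp (-(M : ℝ))) := by gcongr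
      _ = (Cv * (Real.exp (-(M : ℝ) ^ 2) + Real.exp (-(M : ℝ)))) * V x := by ring
      _ ≤ δ * V x := by gcongr
  have hup : (V x : ℝ) ≤ S + 2 * δ * V x := by
    have h1 : x / Real.log x * Real.exp (-(M : ℝ) ^ 2) + x / Real.log x * Real.exp (-(M : ℝ)) ≤
        δ * V x := by
      calc x / Real.log x * Real.exp (-(M : ℝ) ^ 2) + x / Real.log x * Real.exp (-(M : ℝ))
          = x / Real.log x * (Real.exp (-(M : ℝ) ^ 2) + Real.exp (-(M : ℝ))) := by ring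
        _ ≤ (Cv * V x) * (Real.exp (-(M : ℝ) ^ 2) + Real.exp (-(M : ℝ))) := by gcongr
        _ = (Cv * (Real.exp (-(M : ℝ) ^ 2) + Real.exp (-(M : ℝ)))) * V x := by ring
        _ ≤ δ * V x := by gcongr
    have h2 : (V x : ℝ) ≤ x / Real.log x * Real.exp (-(M : ℝ) ^ 2) +
        x / Real.log x * (Cb * (C₀ * (M : ℝ) ^ 18) *
        FF M 0 2 0 (T + Cb * (C₀ * (M : ℝ) ^ 18)) + Real.exp (-(M : ℝ))) + S := by
      rw [hVs]; linarith only [hB, hA, hC, hcard]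
    rw [mul_add] at h2
    linarith only [hcard, hreg', hC, hVs, hA, hB, h1]
  refine ⟨fin_abs _ _ δ ε hδ0 hδ1 hδ2 hV0 hS0 hlow hup, hxV, fun t ht => ?_⟩
  have h1 := hbad (C₀ * (M : ℝ) ^ 18) x T t hx hC0m (by linarith only [e1, e3, h18]) hxT hT1
    (by linarith only [hT2, e4, e3, h18]) fun v hv => ⟨(ht v hv).1, (ht v hv).2.1,
      fun p D h1 h2 _ h4 => (ht v hv).2.2 ⟨p, D, h2, h4, h1⟩⟩
  have h2 : 0 ≤ x / Real.log x * Real.exp (-(M : ℝ) ^ 2) := by positivity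
  have h3 : 0 ≤ δ * V x := by positivity
  have h4 : 4 * (δ * V x) ≤ ε * V x := by
    have : δ * V x ≤ ε / 4 * V x := by gcongr
    linarith only [this]
  rw [mul_add] at h1
  linarith only [h1, h2, h3, h4, hreg', hsmallV]

end Vale.Agent.P031.KA
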