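import Vale.Agent.P031.H928.Approx

/-!
# P031: the structure of the preimages of almost all totients

For almost all totients `v ≤ x` there is a single large prime `p` such that all preimages of `v`
are `p * m` with `φ m = v / (p - 1)`.
-/

set_option linter.all false

namespace Vale.Agent.P031.ML

open Finset Filter Topology KA

/-- `v = (p - 1) D` with a small good totient `D`, a prime `p ≥ x^(1-η)`, and all preimages of `v`
are `p m` with `φ m = D`. -/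
def Str (M : ℕ) (x T' η : ℝ) (v : ℕ) : Prop :=
  ∃ p D : ℕ, p.Prime ∧ D ∈ DF M 0 1 T' ∧ v = (p - 1) * D ∧ D + 1 < p ∧ x ^ (1 - η) ≤ (p : ℝ) ∧
    ∀ n : ℕ, 1 ≤ n → Nat.totient n = v → ∃ m : ℕ, n = p * m ∧ Nat.totient m = D

lemma DF_size_eta (η : ℝ) (hη : 0 < η) : ∀ᶠ M : ℕ in atTop, ∀ (x T C₀ : ℝ) (D : ℕ), 3 ≤ x → 1 ≤ C₀ →
    |ll x - (M : ℝ) ^ 15 - T| ≤ 1 → D ∈ DF M 0 1 (T - C₀ * (M : ℝ) ^ 18) →
    Real.log D ≤ η * Real.log x := by
  have hexp : ∀ᶠ M : ℕ in atTop, (M : ℝ) ^ 25 * Real.exp (-(M : ℝ)) < η / Real.exp 1 :=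
    ((Real.tendsto_pow_mul_exp_neg_atTop_nhds_zero 25).comp
      tendsto_natCast_atTop_atTop).eventually_lt_const (by positivity)
  filter_upwards [hexp, eventually_ge_atTop 1] with M hexp hM x T C₀ D hx hC hxT hD
  have hM1 : (1 : ℝ) ≤ M := by exact_mod_cast hM
  have hlogx : 0 < Real.log x := Real.log_pos (by linarith only [hx])
  have hD1 := mem_DF_pos hD
  have hDD := mem_DF_DD hD
  have hcost := mem_DF_cost hD
  have hOm : Om D ≤ M ^ 25 := by simpa using hDD.2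
  have h18 : 1 ≤ (M : ℝ) ^ 18 := one_le_pow₀ hM1
  by_cases hg : gpf D ≤ 1
  · have h1 := le_gpf_pow D hD1
    have h2 : D ≤ 1 := h1.trans ((Nat.pow_le_pow_left hg _).trans (by simp))
    have h3 : D = 1 := by omega
    rw [h3]; simp; positivity
  · push Not at hg
    have hg1 : (1 : ℝ) < gpf D := by exact_mod_cast hg
    have hlg : 0 < Real.log (gpf D) := Real.log_pos hg1
    have hY : YY M D ≤ Cost M 1 D := le_max_left _ _
    have hY2 : ll (gpf D : ℝ) - (M : ℝ) ^ 15 ≤ YY M D := le_max_right _ _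
    obtain ⟨hxT1, hxT2⟩ := abs_le.1 hxT
    have hC18 : (M : ℝ) ^ 18 ≤ C₀ * (M : ℝ) ^ 18 := by
      linarith only [mul_nonneg (sub_nonneg.2 h18) (sub_nonneg.2 hC), hC]
    have hM18 : (M : ℝ) ≤ (M : ℝ) ^ 18 := by
      calc (M : ℝ) = (M : ℝ) ^ 1 := (pow_one _).symm
        _ ≤ (M : ℝ) ^ 18 := pow_le_pow_right₀ hM1 (by norm_num)
    have h1 : Real.log (gpf D) ≤ Real.log x * (Real.exp 1 * Real.exp (-(M : ℝ))) := by
      have h2 : Real.log (gpf D) = Real.exp (ll (gpf D : ℝ)) := by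
        rw [ll, Real.exp_log hlg]
      have h3 : Real.log x = Real.exp (ll x) := by rw [ll, Real.exp_log hlogx]
      rw [h2, h3, ← Real.exp_add, ← Real.exp_add]
      apply Real.exp_le_exp.2
      linarith only [hC18, hM18, hY, hxT1, hY2, hcost]
    have h4 : Real.log D ≤ Om D * Real.log (gpf D) := by
      rw [← Real.log_pow]
      apply Real.log_le_log (by exact_mod_cast hD1)
      exact_mod_cast le_gpf_pow D hD1
    have h5 : (Om D : ℝ) ≤ (M : ℝ) ^ 25 := by exact_mod_cast hOm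
    calc Real.log D ≤ Om D * Real.log (gpf D) := h4
      _ ≤ (M : ℝ) ^ 25 * (Real.log x * (Real.exp 1 * Real.exp (-(M : ℝ)))) := by gcongr
      _ = Real.log x * Real.exp 1 * ((M : ℝ) ^ 25 * Real.exp (-(M : ℝ))) := by ring
      _ ≤ Real.log x * Real.exp 1 * (η / Real.exp 1) := by gcongr
      _ = η * Real.log x := by field_simp

/-- numbers with two pairs -/
def Two (M : ℕ) (x : ℝ) (v : ℕ) : Prop :=
  ∃ a b : ℕ × ℕ, PD M 0 x a ∧ PD M 0 x b ∧ a ≠ b ∧ (a.1 - 1) * a.2 = v ∧ (b.1 - 1) * b.2 = v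

/-- few numbers have two pairs -/
lemma two_count : ∀ᶠ M : ℕ in atTop, ∀ (x : ℝ) (s : Finset ℕ), 3 ≤ x → ll x ≤ 5 * (M : ℝ) ^ 20 →
    (∀ v ∈ s, 1 ≤ v ∧ Two M x v) → (s.card : ℝ) ≤ x / Real.log x * Real.exp (-(M : ℝ) ^ 18 / 2) := by
  classical
  filter_upwards [col_use_count_of cl_count, eventually_ge_atTop 1] with M hM hM1 x s hx hll hs
  set A : Finset (ℕ × ℕ) := ((Finset.range (⌊x⌋₊ + 2)) ×ˢ (Finset.range (⌊x⌋₊ + 1))).filter
    (fun a => PD M 0 x a) with hA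
  have hAP : ∀ a ∈ A, PD M 0 x a := fun a ha => by
    rw [hA, Finset.mem_filter] at ha
    exact ha.2
  refine le_trans ?_ (hM 0 x A (by omega) hx hll hAP)
  have hsub : s ⊆ ((A ×ˢ A).filter (fun c => c.1 ≠ c.2 ∧
      (c.1.1 - 1) * c.1.2 = (c.2.1 - 1) * c.2.2)).image (fun c => (c.1.1 - 1) * c.1.2) := by
    intro v hv
    obtain ⟨hv1, a, b, ha, hb, hab, h1, h2⟩ := hs v hv
    have hmem : ∀ a : ℕ × ℕ, PD M 0 x a → (a.1 - 1) * a.2 = v → a ∈ A := by
      intro a ha h1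
      rw [hA, Finset.mem_filter, Finset.mem_product, Finset.mem_range, Finset.mem_range]
      have hle := ha.le
      rw [h1] at hle
      have hvx : v ≤ ⌊x⌋₊ := Nat.le_floor hle
      have hp2 := ha.nrm.big.1.two_le
      have h3 : a.1 - 1 ≤ v := by
        rw [← h1]
        refine Nat.le_mul_of_pos_right _ (Nat.pos_of_ne_zero ?_)
        rintro h0
        rw [h0, mul_zero] at h1
        omega
      have h4 : a.2 ≤ v := by
        rw [← h1]
        exact Nat.le_mul_of_pos_left _ (by omega)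
      exact ⟨⟨by omega, by omega⟩, ha⟩
    rw [Finset.mem_image]
    refine ⟨(a, b), ?_, h1⟩
    rw [Finset.mem_filter, Finset.mem_product]
    exact ⟨⟨hmem a ha h1, hmem b hb h2⟩, hab, h1.trans h2.symm⟩
  exact_mod_cast (Finset.card_le_card hsub).trans Finset.card_image_le

/-- The main step: outside the exceptional classes the structure holds. -/
lemma str_of (M : ℕ) (x T C₀ η y₀ : ℝ) (hC₀ : 4 ≤ C₀) (hη0 : 0 < η) (hη : η ≤ 1 / 4)
    (hN : VLow.Num 0 M 1 y₀) (hstep : VLow.StepAt M)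
    (hdecay : (9 / 10 : ℝ) ^ (M / 3) * (5 * (M : ℝ) ^ 20 + 1) < (M : ℝ) ^ 15)
    (hsmall : 2 * (M : ℝ) ^ 25 * Real.exp ((M : ℝ) ^ 15) < Real.log x)
    (hs : VLow.Scale M x) (hM3 : 3 ≤ M) (hx16 : 16 ≤ η * Real.log x)
    (hxT : |ll x - (M : ℝ) ^ 15 - T| ≤ 1)
    (hsize : ∀ D ∈ DF M 0 1 (T - C₀ * (M : ℝ) ^ 18), Real.log D ≤ η / 4 * Real.log x)
    (v : ℕ) (hv : IsTot v) (hvx : (v : ℝ) ≤ x) (hv0 : x ^ (1 - η / 2) < (v : ℝ))
    (hAlt : ¬ ThinM.Alt M x v)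
    (hrep : v ∈ DD M 0 → ∃ p D : ℕ, p.Prime ∧
      D ∈ DF M 0 1 (T - C₀ * (M : ℝ) ^ 18) ∧ v = (p - 1) * D)
    (htwo : ¬ Two M x v) : Str M x (T - C₀ * (M : ℝ) ^ 18) η v := by
  have hM1 : 1 ≤ M := by omega
  have hm1 : (1 : ℝ) ≤ M := by exact_mod_cast hM1
  have hlogx := hs.logpos
  have hx0 : (0 : ℝ) < x := by linarith only [hs.x3]
  have hz9 : 9 ≤ x := by
    have h1 := Real.add_one_le_exp (Real.log x)
    rw [Real.exp_log hx0] at h1
    nlinarith only [h1, hx16, hη, hlogx]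
  have hzM : ll x ≤ 5 * (M : ℝ) ^ 20 := by
    have := hs.hi
    have h2 : (0 : ℝ) ≤ (M : ℝ) ^ 20 := by positivity
    linarith only [this, h2]
  have hDDv : v ∈ DD M 0 := by
    by_contra hcon
    exact hAlt (ThinM.decomp M hM1 x hz9 hzM hdecay v hv hvx hcon)
  obtain ⟨p, D, hp, hD, hvD⟩ := hrep hDDv
  have hlogD := hsize D hD
  have hD1 : 1 ≤ D := mem_DF_pos hD
  have hD0 : (0 : ℝ) < D := by exact_mod_cast hD1
  have hp2 := hp.two_le
  have hAlt' := hAlt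
  unfold ThinM.Alt at hAlt'
  rw [not_or, not_or, not_or, not_or, not_or, not_or, not_or] at hAlt'
  obtain ⟨c0, c1, c2, c3, c4, c5, c6, c7⟩ := hAlt'
  rw [not_not] at c2
  -- sizes
  have hDle : (D : ℝ) ≤ x ^ (η / 4) := by
    rw [Real.rpow_def_of_pos hx0, ← Real.exp_log hD0]
    apply Real.exp_le_exp.2
    linarith only [hlogD]
  have hpv : ((p - 1 : ℕ) : ℝ) * D = v := by rw [hvD]; push_cast; ring
  have hpge : x ^ (1 - 3 / 4 * η) < ((p - 1 : ℕ) : ℝ) := by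
    by_contra hcon
    push Not at hcon
    have h1 : (v : ℝ) ≤ x ^ (1 - 3 / 4 * η) * x ^ (η / 4) := by
      rw [← hpv]
      exact mul_le_mul hcon hDle hD0.le (by positivity)
    rw [← Real.rpow_add hx0] at h1
    have h2 : 1 - 3 / 4 * η + η / 4 = 1 - η / 2 := by ring
    rw [h2] at h1
    exact absurd hv0 (not_lt.2 h1)
  have hx1 : (1 : ℝ) ≤ x := by linarith only [hs.x3]
  have hp1 : ((p - 1 : ℕ) : ℝ) ≤ p := by exact_mod_cast Nat.sub_le p 1
  have hpbig1 : x ^ (1 - η) ≤ (p : ℝ) := by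
    have h1 : x ^ (1 - η) ≤ x ^ (1 - 3 / 4 * η) :=
      Real.rpow_le_rpow_of_exponent_le hx1 (by linarith only [hη0])
    linarith only [h1, hpge, hp1]
  have hsqrt : √x < (p : ℝ) := by
    have h1 : √x ≤ x ^ (1 - 3 / 4 * η) := by
      rw [Real.sqrt_eq_rpow]
      exact Real.rpow_le_rpow_of_exponent_le hx1 (by linarith only [hη])
    linarith only [h1, hpge, hp1]
  have hDp : D + 1 < p := by
    have h1 : x ^ (η / 4) + 2 ≤ x ^ (1 - 3 / 4 * η) := by
      have h2 : x ^ (1 - 3 / 4 * η) = x ^ (η / 4) * x ^ (1 - η) := by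
        rw [← Real.rpow_add hx0]; congr 1; ring
      have h3 : 1 ≤ x ^ (η / 4) := Real.one_le_rpow hx1 (by linarith only [hη0])
      have h4 : (3 : ℝ) ≤ x ^ (1 - η) := by
        have h5 : Real.log x * (1 - η) + 1 ≤ x ^ (1 - η) := by
          rw [Real.rpow_def_of_pos hx0]
          exact Real.add_one_le_exp _
        nlinarith only [h5, hx16, hη, hlogx, hη0]
      rw [h2]
      nlinarith only [h3, h4]
    have h2 : (D : ℝ) + 1 < p := by linarith only [h1, hDle, hpge, hp1]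
    exact_mod_cast h2
  -- the prime is normal
  have hbig : Big M p := by
    refine ⟨hp, ?_⟩
    have h1 := hs.ll_ge hsqrt
    have h2 := hs.lo
    have h3 := Real.log_two_lt_d9
    have h4 : (M : ℝ) ^ 15 + 1 ≤ (M : ℝ) ^ 19 := by
      have hm2 : (2 : ℝ) ≤ (M : ℝ) := by exact_mod_cast (by omega)
      have h5 : (1 : ℝ) ≤ (M : ℝ) ^ 15 := one_le_pow₀ hm1
      have h6 : (2 : ℝ) ≤ (M : ℝ) ^ 4 := by
        calc (2 : ℝ) ≤ M := hm2
          _ ≤ (M : ℝ) ^ 4 := le_self_pow₀ hm1 (by norm_num)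
      have h7 : (M : ℝ) ^ 19 = (M : ℝ) ^ 15 * (M : ℝ) ^ 4 := by ring
      linarith only [mul_nonneg (sub_nonneg.2 h5) (sub_nonneg.2 h6), h6, h5, h7]
    linarith only [h3, h4, h1, h2]
  have hDtot : IsTot D := by
    obtain ⟨⟨J, P, -, hCh⟩, -⟩ := mem_DF_DD hD
    obtain ⟨m, hm1, hm2, -⟩ := VLow.ch_tot hCh
    exact ⟨m, hm1, hm2⟩
  have hNrm : Nrm M p := by
    by_contra hcon
    exact c4 ⟨p, D, hbig, hcon, hDtot, hvD⟩
  have hNoSq : NoSq M v := c2
  have hGP : p ∈ VLow.GP M x D := by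
    rw [VLow.mem_GP]
    refine ⟨⟨?_, hp⟩, hsqrt, hNrm, ?_⟩
    · have h1 : ((p - 1 : ℕ) : ℝ) ≤ x / D := by
        rw [le_div_iff₀ hD0, hpv]
        exact hvx
      have h2 : p - 1 ≤ ⌊x / (D : ℝ)⌋₊ := Nat.le_floor h1
      omega
    · intro q hq hqD hqp
      apply hNoSq q hq
      rw [hvD, pow_two]
      exact Nat.mul_dvd_mul hqp hqD
  have hDF : D ∈ DF M 0 1 (ll x - 3 * (M : ℝ) ^ 18) := by
    refine DF_mono ?_ hD
    obtain ⟨h1, h2⟩ := abs_le.1 hxT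
    have h3 : (1 : ℝ) ≤ (M : ℝ) ^ 18 := one_le_pow₀ hm1
    have h4 : 4 * (M : ℝ) ^ 18 ≤ C₀ * (M : ℝ) ^ 18 := by gcongr
    have h5 : (0 : ℝ) ≤ (M : ℝ) ^ 15 := by positivity
    linarith only [h1, h3, h4, h5]
  have hPD : PD M 0 x (p, D) := (VLow.PD_of_GP hN hstep hs le_rfl hDF hGP).1
  refine ⟨p, D, hp, hD, hvD, hDp, hpbig1, fun n hn1 hnv => ?_⟩
  obtain ⟨p', m, J, P, hn, hpm, hNrm', hJ, hCh, hP⟩ :=
    ThinM.decomp' M hM1 x hz9 hzM hdecay hsmall v n hn1 hnv hvx hAlt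
  have hpp' := hNrm'.big.1
  have hprod : (p' - 1) * Nat.totient m = v := by
    rw [← hnv, hn, Nat.totient_mul ((Nat.Prime.coprime_iff_not_dvd hpp').mpr hpm),
      Nat.totient_prime hpp']
  have hprod2 : ((p, D) : ℕ × ℕ).1 - 1 = p - 1 := rfl
  have hPD' : PD M 0 x (p', Nat.totient m) := by
    have e : (p' - 1) * Nat.totient m = (p - 1) * D := hprod.trans hvD
    refine ⟨hNrm', ⟨J, P, by simpa using hJ, hCh, hP⟩, ?_, ?_, ?_, ?_⟩
    · show Om ((p' - 1) * Nat.totient m) ≤ M ^ 26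
      rw [e]; exact hPD.om
    · show NoSq M ((p' - 1) * Nat.totient m)
      rw [e]; exact hPD.nosq
    · show GG M ((p' - 1) * Nat.totient m) ≤ -(M : ℝ) ^ 18
      rw [e]; exact hPD.gg
    · show (((p' - 1) * Nat.totient m : ℕ) : ℝ) ≤ x
      rw [e]; exact hPD.le
  have heq : ((p', Nat.totient m) : ℕ × ℕ) = (p, D) := by
    by_contra hne
    exact htwo ⟨(p', Nat.totient m), (p, D), hPD', hPD, hne, hprod, hvD.symm⟩
  rw [Prod.mk.injEq] at heq
  obtain ⟨h1, h2⟩ := heq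
  exact ⟨m, by rw [hn, h1], h2⟩

/-- For almost all totients the structure holds, together with the asymptotic formula. -/
theorem struct : ∃ C₀ : ℝ, 1 ≤ C₀ ∧ ∀ η δ : ℝ, 0 < η → η ≤ 1 / 4 → 0 < δ →
    ∀ᶠ M : ℕ in atTop, ∀ (x T : ℝ), 3 ≤ x →
    |ll x - (M : ℝ) ^ 15 - T| ≤ 1 → 1 / 2 * (M : ℝ) ^ 20 ≤ T → T ≤ 41 / 20 * (M : ℝ) ^ 20 →
    |(V x : ℝ) - ∑ D ∈ DF M 0 1 (T - C₀ * (M : ℝ) ^ 18), pc1 (x / (D : ℝ))| ≤ δ * V x ∧
    ∀ s : Finset ℕ, (∀ v ∈ s, IsTot v ∧ (v : ℝ) ≤ x ∧ ¬ Str M x (T - C₀ * (M : ℝ) ^ 18) η v) →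
      (s.card : ℝ) ≤ δ * V x := by
  classical
  obtain ⟨C₁, hC₁, Cv, hCv, happ⟩ := approx2
  refine ⟨max C₁ 4, hC₁.trans (le_max_left _ _), fun η δ hη0 hη hδ => ?_⟩
  set C₀ := max C₁ 4 with hC₀
  have hC4 : 4 ≤ C₀ := le_max_right _ _
  have hC1 : 1 ≤ C₀ := by linarith only [hC4]
  set δ' := δ / 4 with hδ'
  have hδ'0 : 0 < δ' := by positivity
  -- large `x`
  have hlog : ∀ᶠ y : ℝ in atTop, Real.log y ≤ δ' / Cv * y ^ (η / 2) := by
    have h1 := isLittleO_log_rpow_atTop (r := η / 2) (by positivity)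
    have h2 := h1.bound (c := δ' / Cv) (by positivity)
    filter_upwards [h2, eventually_ge_atTop (1 : ℝ)] with y hy hy1
    rw [Real.norm_of_nonneg (Real.log_nonneg hy1), Real.norm_of_nonneg (by positivity)] at hy
    exact hy
  obtain ⟨y₁, hy₁⟩ := eventually_atTop.1 hlog
  have hM0 : Tendsto (fun M : ℕ => (M : ℝ)) atTop atTop := tendsto_natCast_atTop_atTop
  have hexp1 : ∀ᶠ M : ℕ in atTop, Real.exp (-(M : ℝ)) < δ' / Cv :=
    (Real.tendsto_exp_neg_atTop_nhds_zero.comp hM0).eventually_lt_const (by positivity)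
  have hexp2 : ∀ᶠ M : ℕ in atTop, (M : ℝ) ^ 25 * Real.exp (-(M : ℝ)) < 1 / 2 :=
    ((Real.tendsto_pow_mul_exp_neg_atTop_nhds_zero 25).comp hM0).eventually_lt_const (by norm_num)
  filter_upwards [happ C₀ (le_max_left _ _) δ' hδ'0, ThinM.alt_count, two_count,
    DF_size_eta (η / 4) (by positivity), VLow.numeric 0 1 0 one_pos, VLow.step_ev, ThinM.ev_decay,
    hexp1, hexp2, hM0.eventually_ge_atTop (16 / η), hM0.eventually_ge_atTop y₁,
    hM0.eventually_ge_atTop 100] with M happ halt htwo hsize hN hstep hdecay hexp1 hexp2 hM16 hMy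
    hM100 x T hx hxT hT1 hT2
  obtain ⟨ha, hb, hc⟩ := happ x T hx hxT hT1 hT2
  have hV0 : (0 : ℝ) ≤ V x := Nat.cast_nonneg _
  have hm1 : (1 : ℝ) ≤ M := by linarith only [hM100]
  have hM3 : 3 ≤ M := by
    have : (3 : ℝ) ≤ M := by linarith only [hM100]
    exact_mod_cast this
  obtain ⟨hxT1, hxT2⟩ := abs_le.1 hxT
  have hlogx : 0 < Real.log x := Real.log_pos (by linarith only [hx])
  have p15 : (1 : ℝ) ≤ (M : ℝ) ^ 15 := one_le_pow₀ hm1
  have p1519 : (M : ℝ) ^ 15 ≤ (M : ℝ) ^ 19 := pow_le_pow_right₀ hm1 (by norm_num)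
  have p1920 : 100 * (M : ℝ) ^ 19 ≤ (M : ℝ) ^ 20 := by
    have : (M : ℝ) ^ 20 = M * (M : ℝ) ^ 19 := by ring
    rw [this]; gcongr
  have hs : VLow.Scale M x := ⟨hx, by linarith only [hT1, hxT1, p15, p1519, p1920],
    by linarith only [hT2, hxT2, p15, p1519, p1920]⟩
  have hll5 : ll x ≤ 5 * (M : ℝ) ^ 20 := by
    linarith only [hT2, hxT2, p15, p1519, p1920]
  have hM16' : (M : ℝ) ^ 16 ≤ ll x := by
    have h1 : (M : ℝ) ^ 16 ≤ (M : ℝ) ^ 19 := pow_le_pow_right₀ hm1 (by norm_num)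
    have := hs.lo
    linarith only [h1, this]
  have hMll : (M : ℝ) ≤ ll x := by
    have h1 : (M : ℝ) ^ 1 ≤ (M : ℝ) ^ 16 := pow_le_pow_right₀ hm1 (by norm_num)
    rw [pow_one] at h1
    linarith only [h1, hM16']
  have hexpll : Real.exp (ll x) = Real.log x := Real.exp_log hlogx
  have hMlog : (M : ℝ) + 1 ≤ Real.log x := by
    have h1 := Real.add_one_le_exp (ll x)
    linarith only [h1, hexpll, hMll]
  have hMx : (M : ℝ) ≤ x := by
    have h1 := Real.add_one_le_exp (Real.log x)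
    rw [Real.exp_log (by linarith only [hx])] at h1
    linarith only [h1, hMlog]
  have hsmall : 2 * (M : ℝ) ^ 25 * Real.exp ((M : ℝ) ^ 15) < Real.log x := by
    have h1 : (M : ℝ) ^ 15 + M ≤ ll x := by
      have h2 : (M : ℝ) ^ 16 = M * (M : ℝ) ^ 15 := by ring
      have h3 : (M : ℝ) ^ 1 ≤ (M : ℝ) ^ 15 := pow_le_pow_right₀ hm1 (by norm_num)
      rw [pow_one] at h3
      nlinarith only [h2, h3, hM16', hM100, p15]
    have h2 : Real.exp ((M : ℝ) ^ 15 + M) ≤ Real.log x := by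
      rw [← hexpll]; exact Real.exp_le_exp.2 h1
    rw [Real.exp_add] at h2
    have h3 : 2 * (M : ℝ) ^ 25 < Real.exp M := by
      rw [Real.exp_neg, ← div_eq_mul_inv, div_lt_iff₀ (Real.exp_pos _)] at hexp2
      linarith only [hexp2]
    have h4 := Real.exp_pos ((M : ℝ) ^ 15)
    nlinarith only [h2, h3, h4]
  have hx16 : 16 ≤ η * Real.log x := by
    have h1 : 16 / η ≤ Real.log x := by linarith only [hM16, hMlog]
    rw [div_le_iff₀ hη0] at h1
    linarith only [h1]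
  refine ⟨?_, fun s hsm => ?_⟩
  · refine ha.trans ?_
    have : δ' * V x ≤ δ * V x := by
      have : δ' ≤ δ := by rw [hδ']; linarith only [hδ]
      gcongr
    exact this
  -- the cover
  let s0 := s.filter (fun v : ℕ => (v : ℝ) ≤ x ^ (1 - η / 2))
  let s1 := s.filter (fun v : ℕ => ThinM.Alt M x v)
  let s2 := s.filter (fun v : ℕ => v ∈ DD M 0 ∧ ¬ ∃ p D : ℕ, p.Prime ∧
      D ∈ DF M 0 1 (T - C₀ * (M : ℝ) ^ 18) ∧ v = (p - 1) * D)
  let s3 := s.filter (fun v : ℕ => Two M x v)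
  have hcov : s ⊆ (s0 ∪ s1) ∪ (s2 ∪ s3) := by
    intro v hv
    by_contra hcon
    simp only [s0, s1, s2, s3, Finset.mem_union, Finset.mem_filter, hv, true_and, not_or] at hcon
    obtain ⟨⟨h0, h1⟩, h2, h3⟩ := hcon
    obtain ⟨g1, g2, g3⟩ := hsm v hv
    apply g3
    refine str_of M x T C₀ η 0 hC4 hη0 hη hN hstep hdecay hsmall hs hM3 hx16 hxT
      (fun D hD => hsize x T C₀ D hx hC1 hxT hD) v g1 g2 (not_le.1 h0) h1 ?_ h3
    intro hDD
    by_contra hno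
    exact h2 ⟨hDD, hno⟩
  have hxlV : x / Real.log x * Real.exp (-(M : ℝ)) ≤ δ' * V x := by
    calc x / Real.log x * Real.exp (-(M : ℝ)) ≤ (Cv * V x) * (δ' / Cv) := by gcongr
      _ = δ' * V x := by field_simp
  have hx0 : 0 < x := by linarith only [hx]
  have hxl0 : 0 ≤ x / Real.log x := by positivity
  have b0 : (s0.card : ℝ) ≤ δ' * V x := by
    have h1 : (s0.card : ℝ) ≤ x ^ (1 - η / 2) := by
      have h2 : s0 ⊆ Finset.Icc 1 ⌊x ^ (1 - η / 2)⌋₊ := by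
        intro v hv
        rw [Finset.mem_filter] at hv
        rw [Finset.mem_Icc]
        exact ⟨(hsm v hv.1).1.pos, Nat.le_floor hv.2⟩
      calc (s0.card : ℝ) ≤ ((Finset.Icc 1 ⌊x ^ (1 - η / 2)⌋₊).card : ℝ) := by
            exact_mod_cast Finset.card_le_card h2
        _ = (⌊x ^ (1 - η / 2)⌋₊ : ℝ) := by simp
        _ ≤ x ^ (1 - η / 2) := Nat.floor_le (by positivity)
    have h2 := hy₁ x (hMy.trans hMx)
    have h3 : x ^ (1 - η / 2) * Real.log x ≤ δ' / Cv * x := by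
      calc x ^ (1 - η / 2) * Real.log x ≤ x ^ (1 - η / 2) * (δ' / Cv * x ^ (η / 2)) := by gcongr
        _ = δ' / Cv * (x ^ (1 - η / 2) * x ^ (η / 2)) := by ring
        _ = δ' / Cv * x := by
            rw [← Real.rpow_add hx0]
            have : 1 - η / 2 + η / 2 = 1 := by ring
            rw [this, Real.rpow_one]
    have h4 : x ^ (1 - η / 2) ≤ δ' / Cv * (x / Real.log x) := by
      rw [← mul_div_assoc, le_div_iff₀ hlogx]
      exact h3
    calc (s0.card : ℝ) ≤ x ^ (1 - η / 2) := h1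
      _ ≤ δ' / Cv * (x / Real.log x) := h4
      _ ≤ δ' / Cv * (Cv * V x) := by gcongr
      _ = δ' * V x := by field_simp
  have b1 : (s1.card : ℝ) ≤ δ' * V x := by
    refine (halt x s1 hx hM16' hll5 fun v hv => ?_).trans (le_trans ?_ hxlV)
    · rw [Finset.mem_filter] at hv
      exact ⟨(hsm v hv.1).1, (hsm v hv.1).2.1, hv.2⟩
    · refine mul_le_mul_of_nonneg_left (Real.exp_le_exp.2 ?_) hxl0
      nlinarith only [hm1]
  have b2 : (s2.card : ℝ) ≤ δ' * V x := by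
    refine hc s2 fun v hv => ?_
    rw [Finset.mem_filter] at hv
    exact ⟨(hsm v hv.1).2.1, hv.2.1, hv.2.2⟩
  have b3 : (s3.card : ℝ) ≤ δ' * V x := by
    refine (htwo x s3 hx hll5 fun v hv => ?_).trans (le_trans ?_ hxlV)
    · rw [Finset.mem_filter] at hv
      exact ⟨(hsm v hv.1).1.pos, hv.2⟩
    · refine mul_le_mul_of_nonneg_left (Real.exp_le_exp.2 ?_) hxl0
      have h1 : (M : ℝ) ^ 2 ≤ (M : ℝ) ^ 18 := pow_le_pow_right₀ hm1 (by norm_num)
      nlinarith only [hm1, h1, hM100]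
  have hcard : (s.card : ℝ) ≤ (s0.card + s1.card) + (s2.card + s3.card) := by
    have h1 := Finset.card_le_card hcov
    have h2 := Finset.card_union_le (s0 ∪ s1) (s2 ∪ s3)
    have h3 := Finset.card_union_le s0 s1
    have h4 := Finset.card_union_le s2 s3
    exact_mod_cast (by omega : s.card ≤ (s0.card + s1.card) + (s2.card + s3.card))
  have h5 : δ * (V x : ℝ) = 4 * (δ' * V x) := by rw [hδ']; ring
  linarith only [hcard, b0, b1, b2, b3, h5]

end Vale.Agent.P031.ML
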