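import Vale.Agent.P031.H928.Defs
import Vale.Agent.P031.H928.Struct

/-!
# P031: the law of the multiplicity is slowly varying
-/

set_option linter.all false

namespace Vale.Agent.P031.ML

open Finset Filter Topology KA

/-! ### the multiplicity of `(p - 1) D` -/

lemma not_dvd_of_totient_lt {p m D : ℕ} (hp : p.Prime) (hm : Nat.totient m = D) (hD1 : 1 ≤ D)
    (hD : D + 1 < p) : ¬ p ∣ m := by
  intro h
  have h1 : p - 1 ∣ D := by
    have := Nat.totient_dvd_of_dvd h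
    rwa [Nat.totient_prime hp, hm] at this
  have h2 := Nat.le_of_dvd (by omega) h1
  omega

lemma preimages_eq {p D : ℕ} (hp : p.Prime) (hD1 : 1 ≤ D) (hD : D + 1 < p)
    (h : ∀ n : ℕ, 1 ≤ n → Nat.totient n = (p - 1) * D → ∃ m : ℕ, n = p * m ∧ Nat.totient m = D) :
    {n : ℕ | Nat.totient n = (p - 1) * D} = (fun m => p * m) '' {m : ℕ | Nat.totient m = D} := by
  have hp2 := hp.two_le
  ext n
  simp only [Set.mem_ofPred_eq, Set.mem_image]
  constructor
  · intro hn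
    have hn1 : 1 ≤ n := by
      rcases Nat.eq_zero_or_pos n with h0 | h0
      · exfalso
        rw [h0, Nat.totient_zero] at hn
        have : 0 < (p - 1) * D := Nat.mul_pos (by omega) (by omega)
        omega
      · exact h0
    obtain ⟨m, h1, h2⟩ := h n hn1 hn
    exact ⟨m, h2, h1.symm⟩
  · rintro ⟨m, hm, rfl⟩
    have hpm := not_dvd_of_totient_lt hp hm hD1 hD
    rw [Nat.totient_mul ((Nat.Prime.coprime_iff_not_dvd hp).mpr hpm), Nat.totient_prime hp, hm]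

lemma mult_eq {P p D : ℕ} {S : Set ℕ} (hS : Stable P S) (hp : p.Prime) (hP : P ≤ p) (hD1 : 1 ≤ D)
    (hD : D + 1 < p)
    (h : ∀ n : ℕ, 1 ≤ n → Nat.totient n = (p - 1) * D → ∃ m : ℕ, n = p * m ∧ Nat.totient m = D) :
    mult S ((p - 1) * D) = mult S D := by
  have hpre := preimages_eq hp hD1 hD h
  unfold mult
  have he : {n : ℕ | n ∈ S ∧ Nat.totient n = (p - 1) * D} =
      (fun m => p * m) '' {m : ℕ | m ∈ S ∧ Nat.totient m = D} := by
    ext n
    simp only [Set.mem_ofPred_eq, Set.mem_image]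
    constructor
    · rintro ⟨hnS, hn⟩
      have h1 : n ∈ (fun m => p * m) '' {m : ℕ | Nat.totient m = D} := by
        rw [← hpre]; exact hn
      obtain ⟨m, hm, rfl⟩ := h1
      have hm' : Nat.totient m = D := hm
      have hm1 : 1 ≤ m := by
        rcases Nat.eq_zero_or_pos m with h0 | h0
        · rw [h0, Nat.totient_zero] at hm'; omega
        · exact h0
      exact ⟨m, ⟨(hS p hp hP m hm1 (not_dvd_of_totient_lt hp hm' hD1 hD)).1 hnS, hm'⟩, rfl⟩
    · rintro ⟨m, ⟨hmS, hm⟩, rfl⟩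
      have hm1 : 1 ≤ m := by
        rcases Nat.eq_zero_or_pos m with h0 | h0
        · rw [h0, Nat.totient_zero] at hm; omega
        · exact h0
      refine ⟨(hS p hp hP m hm1 (not_dvd_of_totient_lt hp hm hD1 hD)).2 hmS, ?_⟩
      have h1 : p * m ∈ {n : ℕ | Nat.totient n = (p - 1) * D} := by
        rw [hpre]; exact ⟨m, hm, rfl⟩
      exact h1
  rw [he]
  exact Set.ncard_image_of_injective _ (fun a b hab => Nat.eq_of_mul_eq_mul_left hp.pos hab)

/-! ### counting -/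

open Classical in
/-- totients up to `x` -/
noncomputable def tots (x : ℝ) : Finset ℕ := (Finset.Icc 1 ⌊x⌋₊).filter IsTot

lemma mem_tots {x : ℝ} (hx : 0 ≤ x) {v : ℕ} : v ∈ tots x ↔ IsTot v ∧ (v : ℝ) ≤ x := by
  classical
  unfold tots
  rw [Finset.mem_filter, Finset.mem_Icc]
  constructor
  · rintro ⟨⟨h1, h2⟩, h3⟩
    exact ⟨h3, (Nat.le_floor_iff hx).1 h2⟩
  · rintro ⟨h1, h2⟩
    exact ⟨⟨h1.pos, Nat.le_floor h2⟩, h1⟩

open Classical in
lemma V_card {x : ℝ} (hx : 0 ≤ x) : V x = (tots x).card := by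
  unfold V
  rw [← Set.ncard_coe_finset]
  congr 1
  ext v
  simp only [Set.mem_ofPred_eq, Finset.mem_coe]
  rw [mem_tots hx]
  exact Iff.rfl

lemma V_eq_V (x : ℝ) : V x = Vale.Agent.P031.V x := rfl

open Classical in
lemma VSK_card {S K : Set ℕ} {x : ℝ} (hx : 0 ≤ x) :
    VSK S K x = ((tots x).filter (fun v => mult S v ∈ K)).card := by
  unfold VSK
  rw [← Set.ncard_coe_finset]
  congr 1
  ext v
  simp only [Set.mem_ofPred_eq, Finset.mem_coe, Finset.mem_filter]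
  rw [mem_tots hx]
  constructor
  · rintro ⟨h1, h2, h3⟩
    exact ⟨⟨h1, h2⟩, h3⟩
  · rintro ⟨⟨h1, h2⟩, h3⟩
    exact ⟨h1, h2, h3⟩

lemma card_filter_compl (s : Finset ℕ) (S K : Set ℕ) [i1 : DecidablePred fun v => mult S v ∈ K]
    [i2 : DecidablePred fun v => mult S v ∈ Kᶜ] :
    (s.filter (fun v => mult S v ∈ K)).card + (s.filter (fun v => mult S v ∈ Kᶜ)).card = s.card := by
  rw [← Finset.card_filter_add_card_filter_not (s := s) (fun v => mult S v ∈ K)]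
  congr 1
  congr 1
  ext v
  simp

lemma sum_filter_compl (s : Finset ℕ) (S K : Set ℕ) (f : ℕ → ℝ)
    [i1 : DecidablePred fun v => mult S v ∈ K] [i2 : DecidablePred fun v => mult S v ∈ Kᶜ] :
    ∑ v ∈ s.filter (fun v => mult S v ∈ K), f v + ∑ v ∈ s.filter (fun v => mult S v ∈ Kᶜ), f v =
      ∑ v ∈ s, f v := by
  rw [← Finset.sum_filter_add_sum_filter_not s (fun v => mult S v ∈ K) f]
  congr 1
  refine Finset.sum_congr ?_ fun _ _ => rfl
  ext v
  simp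

open Classical in
lemma VSK_compl {S K : Set ℕ} {x : ℝ} (hx : 0 ≤ x) :
    (VSK S K x : ℝ) + VSK S Kᶜ x = V x := by
  rw [VSK_card hx, VSK_card hx, V_card hx]
  have h := @card_filter_compl (tots x) S K _ (fun v => Classical.propDecidable (mult S v ∈ Kᶜ))
  exact_mod_cast h

open Classical in
/-- the upper bound -/
lemma VSK_le {S K : Set ℕ} {P M : ℕ} {x T' η δ : ℝ} (hx : 3 ≤ x) (hS : Stable P S)
    (hP : (P : ℝ) ≤ x ^ (1 - η))
    (hbad : ∀ s : Finset ℕ, (∀ v ∈ s, IsTot v ∧ (v : ℝ) ≤ x ∧ ¬ Str M x T' η v) →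
      (s.card : ℝ) ≤ δ * V x) :
    (VSK S K x : ℝ) ≤ δ * V x +
      ∑ D ∈ (DF M 0 1 T').filter (fun D => mult S D ∈ K), pc1 (x / (D : ℝ)) := by
  have hx0 : 0 ≤ x := by linarith only [hx]
  rw [VSK_card hx0]
  set s := (tots x).filter (fun v => mult S v ∈ K) with hs
  have hsplit := Finset.card_filter_add_card_filter_not (s := s) (fun v => Str M x T' η v)
  have h1 : ((s.filter (fun v => ¬ Str M x T' η v)).card : ℝ) ≤ δ * V x := by
    refine hbad _ fun v hv => ?_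
    rw [Finset.mem_filter, hs, Finset.mem_filter, mem_tots hx0] at hv
    exact ⟨hv.1.1.1, hv.1.1.2, hv.2⟩
  have h2 : ((s.filter (fun v => Str M x T' η v)).card : ℝ) ≤
      ∑ D ∈ (DF M 0 1 T').filter (fun D => mult S D ∈ K), pc1 (x / (D : ℝ)) := by
    refine card_repr_le x _ _ (fun D hD => ?_) fun v hv => ?_
    · rw [Finset.mem_filter] at hD
      exact mem_DF_pos hD.1
    · rw [Finset.mem_filter, hs, Finset.mem_filter, mem_tots hx0] at hv
      obtain ⟨⟨⟨hv1, hv2⟩, hv3⟩, p, D, hp, hD, hvD, hDp, hpx, hpre⟩ := hv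
      refine ⟨hv2, p, D, hp, ?_, hvD⟩
      rw [Finset.mem_filter]
      refine ⟨hD, ?_⟩
      have hPp : P ≤ p := by exact_mod_cast hP.trans hpx
      rw [← mult_eq hS hp hPp (mem_DF_pos hD) hDp (by rw [← hvD]; exact hpre), ← hvD]
      exact hv3
  have h3 : (s.card : ℝ) = (s.filter (fun v => Str M x T' η v)).card +
      (s.filter (fun v => ¬ Str M x T' η v)).card := by exact_mod_cast hsplit.symm
  linarith only [h1, h2, h3]

open Classical in
/-- two-sided bound -/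
lemma VSK_approx {S K : Set ℕ} {P M : ℕ} {x T' η δ : ℝ} (hx : 3 ≤ x) (hS : Stable P S)
    (hP : (P : ℝ) ≤ x ^ (1 - η))
    (happ : |(V x : ℝ) - ∑ D ∈ DF M 0 1 T', pc1 (x / (D : ℝ))| ≤ δ * V x)
    (hbad : ∀ s : Finset ℕ, (∀ v ∈ s, IsTot v ∧ (v : ℝ) ≤ x ∧ ¬ Str M x T' η v) →
      (s.card : ℝ) ≤ δ * V x) :
    |(VSK S K x : ℝ) - ∑ D ∈ (DF M 0 1 T').filter (fun D => mult S D ∈ K), pc1 (x / (D : ℝ))| ≤
      2 * δ * V x := by
  have hx0 : 0 ≤ x := by linarith only [hx]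
  have h1 := VSK_le (K := K) hx hS hP hbad
  have h2 := VSK_le (K := Kᶜ) hx hS hP hbad
  have h3 := VSK_compl (S := S) (K := K) hx0
  have h4 := @sum_filter_compl (DF M 0 1 T') S K (fun D : ℕ => pc1 (x / (D : ℝ))) _
    (fun v => Classical.propDecidable (mult S v ∈ Kᶜ))
  obtain ⟨h6, h7⟩ := abs_le.1 happ
  have hV0 : (0 : ℝ) ≤ δ * V x := by
    have := hbad ∅ (by simp)
    simpa using this
  rw [abs_le]
  constructor <;> linarith only [h1, h2, h3, h4, h6, h7, hV0]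

/-- choice of the parameters for a given large `x` -/
lemma exists_param (c : ℝ) (hc : 0 < c) (C₀ η δ : ℝ) (hC₀ : 1 ≤ C₀)
    (Q : ℕ → ℝ → ℝ → Prop)
    (hQ : ∀ᶠ M : ℕ in atTop, ∀ (x T : ℝ), 3 ≤ x → |ll x - (M : ℝ) ^ 15 - T| ≤ 1 →
      1 / 2 * (M : ℝ) ^ 20 ≤ T → T ≤ 41 / 20 * (M : ℝ) ^ 20 → Q M x (T - C₀ * (M : ℝ) ^ 18))
    (L : ℝ) :
    ∀ᶠ x : ℝ in atTop, ∃ (M : ℕ) (T' : ℝ), Q M x T' ∧ Q M (c * x) T' ∧
      ∀ D ∈ DF M 0 1 T', 1 ≤ D ∧ L ≤ x / (D : ℝ) := by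
  obtain ⟨M₀, hM₀⟩ := eventually_atTop.1 ((hQ.and DF_size).and (eventually_ge_atTop 100))
  have hlim : Tendsto (fun x : ℝ => ll x) atTop atTop :=
    Real.tendsto_log_atTop.comp Real.tendsto_log_atTop
  have e1 : ∀ᶠ x : ℝ in atTop, ((M₀ : ℝ) + 1) ^ 20 ≤ ll x := hlim.eventually_ge_atTop _
  have e2 : ∀ᶠ x : ℝ in atTop, 3 ≤ c * x :=
    (tendsto_id.const_mul_atTop hc).eventually_ge_atTop 3
  have e3 : ∀ᶠ x : ℝ in atTop, 2 * |Real.log c| ≤ Real.log x :=
    Real.tendsto_log_atTop.eventually_ge_atTop _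
  have e4 : ∀ᶠ x : ℝ in atTop, L ^ 2 ≤ x := eventually_ge_atTop _
  filter_upwards [e1, e2, e3, e4, eventually_ge_atTop (3 : ℝ)] with x g1 g2 g3 g4 g5
  obtain ⟨M, hM0, hMx, hxM⟩ := exists_M x M₀ g1
  obtain ⟨⟨h1, h2⟩, h3⟩ := hM₀ M hM0
  have hM100 : (100 : ℝ) ≤ M := by exact_mod_cast h3
  have hM1 : (1 : ℝ) ≤ M := by linarith only [hM100]
  have hlogx : 0 < Real.log x := Real.log_pos (by linarith only [g5])
  have hcx : |ll (c * x) - ll x| ≤ 1 := by
    have hlc : Real.log (c * x) = Real.log c + Real.log x :=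
      Real.log_mul hc.ne' (by linarith)
    have ha := neg_abs_le (Real.log c)
    have hb := le_abs_self (Real.log c)
    have hpos : 0 < Real.log c + Real.log x := by linarith only [g3, hlogx, ha]
    have h4 : ll (c * x) - ll x = Real.log ((Real.log c + Real.log x) / Real.log x) := by
      rw [ll, ll, hlc, Real.log_div hpos.ne' hlogx.ne']
    have h5 : (Real.log c + Real.log x) / Real.log x ≤ 3 / 2 := by
      rw [div_le_iff₀ hlogx]; linarith only [hb, g3]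
    have h6 : 1 / 2 ≤ (Real.log c + Real.log x) / Real.log x := by
      rw [le_div_iff₀ hlogx]; linarith only [g3, ha]
    rw [h4, abs_le]
    constructor
    · have h7 : Real.log (1 / 2) ≤ Real.log ((Real.log c + Real.log x) / Real.log x) :=
        Real.log_le_log (by norm_num) h6
      have h8 : -1 ≤ Real.log (1 / 2) := by
        rw [Real.le_log_iff_exp_le (by norm_num)]
        have := Real.exp_neg_one_lt_d9
        linarith only [this]
      linarith only [h7, h8]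
    · have h7 : Real.log ((Real.log c + Real.log x) / Real.log x) ≤ Real.log (3 / 2) :=
        Real.log_le_log (by linarith only [h6]) h5
      have h8 : Real.log (3 / 2) ≤ 3 / 2 - 1 := Real.log_le_sub_one_of_pos (by norm_num)
      linarith only [h7, h8]
  have h20 : ((M : ℝ) + 1) ^ 20 ≤ 41 / 20 * (M : ℝ) ^ 20 := by
    have h4 : (M : ℝ) + 1 ≤ 101 / 100 * M := by linarith only [hM100]
    calc ((M : ℝ) + 1) ^ 20 ≤ (101 / 100 * M) ^ 20 := by gcongr
      _ = (101 / 100) ^ 20 * (M : ℝ) ^ 20 := by rw [mul_pow]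
      _ ≤ 41 / 20 * (M : ℝ) ^ 20 := by gcongr; norm_num
  have h1520 : 2 * (M : ℝ) ^ 15 ≤ (M : ℝ) ^ 20 := by
    calc 2 * (M : ℝ) ^ 15 ≤ M * (M : ℝ) ^ 15 := by gcongr; linarith only [hM100]
      _ = (M : ℝ) ^ 16 := by ring
      _ ≤ (M : ℝ) ^ 20 := pow_le_pow_right₀ hM1 (by norm_num)
  have h15 : 0 < (M : ℝ) ^ 15 := by positivity
  obtain ⟨T, hT⟩ : ∃ T : ℝ, T = ll x - (M : ℝ) ^ 15 := ⟨_, rfl⟩
  have hT1 : |ll x - (M : ℝ) ^ 15 - T| ≤ 1 := by rw [hT]; simp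
  have hT2 : |ll (c * x) - (M : ℝ) ^ 15 - T| ≤ 1 := by
    rw [hT]
    have : ll (c * x) - (M : ℝ) ^ 15 - (ll x - (M : ℝ) ^ 15) = ll (c * x) - ll x := by ring
    rw [this]; exact hcx
  refine ⟨M, T - C₀ * (M : ℝ) ^ 18, ?_, ?_, fun d hd => ⟨mem_DF_pos hd, ?_⟩⟩
  · exact h1 x T g5 hT1 (by linarith only [hT, hMx, h1520]) (by linarith only [hT, h20, hxM, h15])
  · exact h1 (c * x) T g2 hT2 (by linarith only [hT, hMx, h1520])
      (by linarith only [hT, h20, hxM, h15])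
  · have hs := h2 x T C₀ d g5 hC₀ hT1 hd
    have hd1 : (0 : ℝ) < d := by exact_mod_cast mem_DF_pos hd
    have hx0 : 0 < x := by linarith only [g5]
    have hs2 : (d : ℝ) ≤ Real.sqrt x := by
      rw [← Real.exp_log hd1, ← Real.exp_log (Real.sqrt_pos.2 hx0)]
      apply Real.exp_le_exp.2
      rw [Real.log_sqrt hx0.le]
      exact hs
    have hK : L ≤ Real.sqrt x := Real.le_sqrt_of_sq_le g4
    rw [le_div_iff₀ hd1]
    have hs0 : 0 ≤ Real.sqrt x := Real.sqrt_nonneg x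
    calc L * d ≤ Real.sqrt x * Real.sqrt x := by
          by_cases hK0 : 0 ≤ L
          · gcongr
          · push Not at hK0
            have : L * d ≤ 0 := by nlinarith only [hK0, hd1]
            nlinarith only [this, hs0]
      _ = x := Real.mul_self_sqrt hx0.le

/-- the multiplicity law for a fixed `c` -/
theorem law_fixed (c : ℝ) (hc : 0 < c) (ε : ℝ) (hε : 0 < ε) (P : ℕ) :
    ∀ᶠ x : ℝ in atTop, ∀ S K : Set ℕ, Stable P S →
      |(VSK S K (c * x) : ℝ) - c * VSK S K x| ≤ ε * V x := by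
  classical
  obtain ⟨C₀, hC₀, hstr⟩ := struct
  set δ : ℝ := min (1 / 2) (ε / (20 * (c + 1))) with hδdef
  have hδ : 0 < δ := lt_min (by norm_num) (by positivity)
  have hδ1 : δ ≤ 1 / 2 := min_le_left _ _
  have hδ2 : δ ≤ ε / (20 * (c + 1)) := min_le_right _ _
  obtain ⟨L, hL1, hL⟩ := pc1_near hc hδ
  have hpar := exists_param c hc C₀ (1 / 4) δ hC₀ (fun M x T' =>
    |(V x : ℝ) - ∑ D ∈ DF M 0 1 T', pc1 (x / (D : ℝ))| ≤ δ * V x ∧
    ∀ s : Finset ℕ, (∀ v ∈ s, IsTot v ∧ (v : ℝ) ≤ x ∧ ¬ Str M x T' (1 / 4) v) →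
      (s.card : ℝ) ≤ δ * V x) (hstr (1 / 4) δ (by norm_num) le_rfl hδ) L
  have hpow : Tendsto (fun x : ℝ => x ^ (1 - 1 / 4 : ℝ)) atTop atTop :=
    tendsto_rpow_atTop (by norm_num)
  have e1 := hpow.eventually_ge_atTop (P : ℝ)
  have e2 : ∀ᶠ x : ℝ in atTop, (P : ℝ) ≤ (c * x) ^ (1 - 1 / 4 : ℝ) :=
    (hpow.comp (tendsto_id.const_mul_atTop hc)).eventually_ge_atTop (P : ℝ)
  have e3 : ∀ᶠ x : ℝ in atTop, 3 ≤ c * x :=
    (tendsto_id.const_mul_atTop hc).eventually_ge_atTop 3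
  filter_upwards [hpar, e1, e2, e3, eventually_ge_atTop (3 : ℝ)] with x hx hP1 hP2 hcx3 hx3
  obtain ⟨M, T', ⟨h1, h2⟩, ⟨h3, h4⟩, hD⟩ := hx
  intro S K hS
  have k1 := VSK_approx (K := K) hx3 hS hP1 h1 h2
  have k2 := VSK_approx (K := K) hcx3 hS hP2 h3 h4
  set F := (DF M 0 1 T').filter (fun D => mult S D ∈ K) with hF
  have hnear : ∀ G : Finset ℕ, G ⊆ DF M 0 1 T' →
      |∑ d ∈ G, pc1 (c * x / d) - c * ∑ d ∈ G, pc1 (x / d)| ≤ δ * ∑ d ∈ G, pc1 (x / d) := by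
    intro G hG
    rw [Finset.mul_sum, Finset.mul_sum, ← Finset.sum_sub_distrib]
    refine (Finset.abs_sum_le_sum_abs _ _).trans (Finset.sum_le_sum fun d hd => ?_)
    have h4 := hL (x / d) (hD d (hG hd)).2
    rw [mul_div_assoc]
    exact h4
  have k3 := hnear F (Finset.filter_subset _ _)
  have k4 := hnear _ (Finset.Subset.refl (DF M 0 1 T'))
  have hV0 : (0 : ℝ) ≤ V x := Nat.cast_nonneg _
  have hVc0 : (0 : ℝ) ≤ V (c * x) := Nat.cast_nonneg _
  have hFle : ∑ d ∈ F, pc1 (x / d) ≤ ∑ d ∈ DF M 0 1 T', pc1 (x / d) :=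
    Finset.sum_le_sum_of_subset_of_nonneg (Finset.filter_subset _ _) fun _ _ _ => pc1_nonneg _
  have hF0 : 0 ≤ ∑ d ∈ F, pc1 (x / d) := Finset.sum_nonneg fun _ _ => pc1_nonneg _
  set A := ∑ d ∈ DF M 0 1 T', pc1 (x / d) with hA
  set B := ∑ d ∈ DF M 0 1 T', pc1 (c * x / d) with hB
  set A' := ∑ d ∈ F, pc1 (x / d) with hA'
  set B' := ∑ d ∈ F, pc1 (c * x / d) with hB'
  obtain ⟨a1, a2⟩ := abs_le.1 h1
  obtain ⟨b1, b2⟩ := abs_le.1 h3
  obtain ⟨c1, c2⟩ := abs_le.1 k1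
  obtain ⟨d1, d2⟩ := abs_le.1 k2
  obtain ⟨e1, e2⟩ := abs_le.1 k3
  obtain ⟨f1, f2⟩ := abs_le.1 k4
  have hδV : δ * (V x : ℝ) ≤ 1 / 2 * V x := by gcongr
  have hδVc : δ * (V (c * x) : ℝ) ≤ 1 / 2 * V (c * x) := by gcongr
  have hAle : A ≤ 2 * V x := by linarith only [a1, hδV, hV0]
  have hA0 : 0 ≤ A := Finset.sum_nonneg fun _ _ => pc1_nonneg _
  have hBle : B ≤ (c + 1) * (2 * V x) := by
    have g1 : δ * A ≤ 1 * A := by
      apply mul_le_mul_of_nonneg_right _ hA0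
      linarith only [hδ1]
    have g2 : B ≤ (c + 1) * A := by linarith only [f2, g1]
    refine g2.trans ?_
    apply mul_le_mul_of_nonneg_left hAle
    linarith only [hc]
  have hVc : (V (c * x) : ℝ) ≤ 4 * (c + 1) * V x := by linarith only [b2, hδVc, hBle]
  have g3 : δ * A' ≤ δ * (2 * V x) := by
    apply mul_le_mul_of_nonneg_left _ hδ.le
    exact hFle.trans hAle
  have g4 : δ * (V (c * x) : ℝ) ≤ δ * (4 * (c + 1) * V x) := by gcongr
  have g5 : δ * (20 * (c + 1)) ≤ ε := by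
    rwa [le_div_iff₀ (by positivity)] at hδ2
  have g6 : δ * (20 * (c + 1)) * V x ≤ ε * V x := by gcongr
  have g7 : 0 ≤ δ * V x := by positivity
  have g8 : 0 ≤ c * (δ * V x) := by positivity
  have c1' := mul_le_mul_of_nonneg_left c1 hc.le
  have c2' := mul_le_mul_of_nonneg_left c2 hc.le
  rw [abs_le]
  constructor
  · nlinarith only [c1', c2', d1, e1, g3, g4, g6, g7, g8]
  · nlinarith only [c1', c2', d2, e2, g3, g4, g6, g7, g8]

end Vale.Agent.P031.ML
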