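import Mathlib

/-! Definitions for the multiplicity law of Euler's function. -/

namespace Vale.Agent.P031.ML

/-- `v` is a totient: a value of Euler's function. -/
def IsTotient (v : ℕ) : Prop := ∃ n : ℕ, 1 ≤ n ∧ Nat.totient n = v

/-- `V(x)`: the number of totients `v ≤ x`. -/
noncomputable def V (x : ℝ) : ℕ := Set.ncard {v : ℕ | IsTotient v ∧ (v : ℝ) ≤ x}

/-- `A_S(v)`: the number of `n ∈ S` with `φ(n) = v` (for `S = ℕ` this is the multiplicity of the
totient `v`). -/
noncomputable def mult (S : Set ℕ) (v : ℕ) : ℕ := Set.ncard {n : ℕ | n ∈ S ∧ Nat.totient n = v}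

/-- `V_{S,K}(x)`: the number of totients `v ≤ x` with `A_S(v) ∈ K`. -/
noncomputable def VSK (S K : Set ℕ) (x : ℝ) : ℕ :=
  Set.ncard {v : ℕ | IsTotient v ∧ (v : ℝ) ≤ x ∧ mult S v ∈ K}

/-- Membership in `S` does not change when `n` is multiplied by a prime `p ≥ P` not dividing `n`.
Examples: all integers, the squarefree integers, the odd integers, the multiples of `m`. -/
def Stable (P : ℕ) (S : Set ℕ) : Prop :=
  ∀ p : ℕ, p.Prime → P ≤ p → ∀ n : ℕ, 1 ≤ n → ¬ p ∣ n → (p * n ∈ S ↔ n ∈ S)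

end Vale.Agent.P031.ML
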