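import Vale.Agent.P031.H928.Defs

/-! Definitions for the large prime of a totient. -/

namespace Vale.Agent.P031.ML

/-- `p` is the large prime of `v`: a prime which is the largest prime factor of **every** `n ≥ 1`
with `φ(n) = v`, and which divides every such `n` exactly once. -/
def IsTop (v p : ℕ) : Prop :=
  p.Prime ∧ ∀ n : ℕ, 1 ≤ n → Nat.totient n = v →
    p ∣ n ∧ ¬ p ^ 2 ∣ n ∧ ∀ r : ℕ, r.Prime → r ∣ n → r ≤ p

/-- `N Q x`: the number of totients `v ≤ x` with the property `Q`. -/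
noncomputable def N (Q : ℕ → Prop) (x : ℝ) : ℕ :=
  Set.ncard {v : ℕ | IsTotient v ∧ (v : ℝ) ≤ x ∧ Q v}

/-- `primesIn R x`: the number of primes `p ≤ x` with `p ∈ R`. -/
noncomputable def primesIn (R : Set ℕ) (x : ℝ) : ℕ :=
  Set.ncard {p : ℕ | p.Prime ∧ (p : ℝ) ≤ x ∧ p ∈ R}

end Vale.Agent.P031.ML
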