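import Vale.Agent.P031.H928.Count

/-!
# P031: the final statements
-/

set_option linter.all false

namespace Vale.Agent.P031.ML

open Finset Filter Topology KA

lemma VSK_mono {S K : Set ℕ} {x y : ℝ} (h : x ≤ y) : VSK S K x ≤ VSK S K y := by
  unfold VSK
  refine Set.ncard_le_ncard ?_ ?_
  · rintro v ⟨h1, h2, h3⟩
    exact ⟨h1, h2.trans h, h3⟩
  · refine (Set.finite_Iic ⌊y⌋₊).subset ?_
    rintro v ⟨-, hv, -⟩
    exact Nat.le_floor hv

lemma VSK_zero {S K : Set ℕ} : VSK S K 0 = 0 := by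
  unfold VSK
  have : {v : ℕ | IsTotient v ∧ (v : ℝ) ≤ 0 ∧ mult S v ∈ K} = ∅ := by
    ext v
    simp only [Set.mem_ofPred_eq, Set.mem_empty_iff_false, iff_false, not_and]
    rintro ⟨n, hn, rfl⟩ h
    exfalso
    have h1 : 0 < Nat.totient n := Nat.totient_pos.2 hn
    have h2 : (0 : ℝ) < Nat.totient n := by exact_mod_cast h1
    linarith
  rw [this]; simp

lemma VSK_le_V {S K : Set ℕ} {x : ℝ} : VSK S K x ≤ V x := by
  unfold VSK V
  refine Set.ncard_le_ncard ?_ ?_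
  · rintro v ⟨h1, h2, h3⟩
    exact ⟨h1, h2⟩
  · refine (Set.finite_Iic ⌊x⌋₊).subset ?_
    rintro v ⟨-, hv⟩
    exact Nat.le_floor hv

/-- the multiplicity law, uniformly in `c ∈ [0, B]` -/
theorem law (B ε : ℝ) (P : ℕ) (hε : 0 < ε) :
    ∀ᶠ x : ℝ in atTop, ∀ c ∈ Set.Icc (0 : ℝ) B, ∀ S K : Set ℕ, Stable P S →
      |(VSK S K (c * x) : ℝ) - c * VSK S K x| ≤ ε * V x := by
  obtain ⟨N, hN⟩ := exists_nat_gt (B / (ε / 2))
  have hε2 : 0 < ε / 2 := by positivity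
  have key : ∀ i ∈ Finset.range (N + 2), ∀ᶠ x : ℝ in atTop, ∀ S K : Set ℕ, Stable P S →
      |(VSK S K (((i : ℝ) * (ε / 2)) * x) : ℝ) - ((i : ℝ) * (ε / 2)) * VSK S K x| ≤
        ε / 2 * V x := by
    intro i _
    rcases Nat.eq_zero_or_pos i with hi | hi
    · subst hi
      filter_upwards with x S K hS
      simp only [Nat.cast_zero, zero_mul]
      rw [VSK_zero]
      simp only [Nat.cast_zero, sub_zero, abs_zero]
      positivity
    · exact law_fixed ((i : ℝ) * (ε / 2)) (by positivity) (ε / 2) hε2 P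
  have key' := (Finset.eventually_all (Finset.range (N + 2))).2 key
  filter_upwards [key', eventually_ge_atTop (0 : ℝ)] with x hx hx0 c hc S K hS
  obtain ⟨hc0, hcB⟩ := hc
  set i : ℕ := ⌊c / (ε / 2)⌋₊ with hi
  have h1 : (i : ℝ) * (ε / 2) ≤ c := by
    have := Nat.floor_le (div_nonneg hc0 hε2.le)
    rwa [← hi, le_div_iff₀ hε2] at this
  have h2 : c < ((i + 1 : ℕ) : ℝ) * (ε / 2) := by
    have := Nat.lt_floor_add_one (c / (ε / 2))
    rw [← hi, div_lt_iff₀ hε2] at this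
    exact_mod_cast this
  have h3 : i < N + 1 := by
    have h4 : (i : ℝ) ≤ c / (ε / 2) := Nat.floor_le (div_nonneg hc0 hε2.le)
    have h5 : c / (ε / 2) ≤ B / (ε / 2) := div_le_div_of_nonneg_right hcB hε2.le
    have h6 : (i : ℝ) < N := lt_of_le_of_lt (h4.trans h5) hN
    have : i < N := by exact_mod_cast h6
    omega
  have hA := hx i (Finset.mem_range.2 (by omega)) S K hS
  have hB := hx (i + 1) (Finset.mem_range.2 (by omega)) S K hS
  have hm1 : (VSK S K (((i : ℝ) * (ε / 2)) * x) : ℝ) ≤ VSK S K (c * x) := by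
    exact_mod_cast VSK_mono (mul_le_mul_of_nonneg_right h1 hx0)
  have hm2 : (VSK S K (c * x) : ℝ) ≤ VSK S K ((((i + 1 : ℕ) : ℝ) * (ε / 2)) * x) := by
    exact_mod_cast VSK_mono (mul_le_mul_of_nonneg_right h2.le hx0)
  have hle : (VSK S K x : ℝ) ≤ V x := by exact_mod_cast VSK_le_V
  have hV0 : (0 : ℝ) ≤ VSK S K x := Nat.cast_nonneg _
  obtain ⟨a1, a2⟩ := abs_le.1 hA
  obtain ⟨b1, b2⟩ := abs_le.1 hB
  have h7 : ((i + 1 : ℕ) : ℝ) * (ε / 2) = (i : ℝ) * (ε / 2) + ε / 2 := by push_cast; ring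
  rw [h7] at h2 b2 hm2
  have h8 : ε / 2 * (VSK S K x : ℝ) ≤ ε / 2 * V x := by gcongr
  have h9 := mul_le_mul_of_nonneg_right h1 hV0
  have h10 := mul_le_mul_of_nonneg_right h2.le hV0
  have h11 : ((i : ℝ) * (ε / 2) + ε / 2) * (VSK S K x : ℝ) =
      (i : ℝ) * (ε / 2) * VSK S K x + ε / 2 * VSK S K x := by ring
  rw [h11] at b2 h10
  rw [abs_le]
  constructor
  · linarith only [a1, hm1, h8, h10]
  · linarith only [b2, hm2, h8, h9]

/-- the ratio for classes of positive lower proportion -/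
theorem ratio (P : ℕ) (S K : Set ℕ) (hS : Stable P S) (δ : ℝ) (hδ : 0 < δ)
    (hlow : ∀ᶠ x : ℝ in atTop, δ * V x ≤ VSK S K x) (c : ℝ) (hc : 0 < c) :
    Tendsto (fun x : ℝ => (VSK S K (c * x) : ℝ) / VSK S K x) atTop (𝓝 c) := by
  rw [Metric.tendsto_nhds]
  intro ε hε
  have h1 := law_fixed c hc (δ * (ε / 2)) (by positivity) P
  filter_upwards [h1, hlow, eventually_ge_atTop (1 : ℝ)] with x hx hl hx1
  have hV1 : 1 ≤ V x := by
    unfold V
    have hfin : {v : ℕ | IsTotient v ∧ (v : ℝ) ≤ x}.Finite := by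
      refine (Set.finite_Iic ⌊x⌋₊).subset ?_
      rintro v ⟨-, hv⟩
      exact Nat.le_floor hv
    exact (Set.ncard_pos hfin).2 ⟨1, ⟨1, le_rfl, by simp⟩, by simpa using hx1⟩
  have hV1' : (1 : ℝ) ≤ V x := by exact_mod_cast hV1
  have hpos : (0 : ℝ) < VSK S K x := by
    have : 0 < δ * (V x : ℝ) := by positivity
    linarith only [this, hl]
  have h2 := hx S K hS
  rw [Real.dist_eq]
  have h3 : (VSK S K (c * x) : ℝ) / VSK S K x - c =
      ((VSK S K (c * x) : ℝ) - c * VSK S K x) / VSK S K x := by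
    field_simp
  rw [h3, abs_div, abs_of_pos hpos, div_lt_iff₀ hpos]
  refine lt_of_le_of_lt h2 ?_
  have h4 : δ * (ε / 2) * (V x : ℝ) ≤ ε / 2 * VSK S K x := by
    calc δ * (ε / 2) * (V x : ℝ) = ε / 2 * (δ * V x) := by ring
      _ ≤ ε / 2 * VSK S K x := by gcongr
  have h5 : 0 < ε * (VSK S K x : ℝ) := by positivity
  linarith only [h4, h5]

/-- the structure of the preimages of almost all totients -/
theorem structure_ae (ε : ℝ) (hε : 0 < ε) :
    ∀ᶠ x : ℝ in atTop,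
      (Set.ncard {v : ℕ | IsTotient v ∧ (v : ℝ) ≤ x ∧ ¬ ∃ p : ℕ, p.Prime ∧
        x ^ (1 - ε) ≤ (p : ℝ) ∧ p - 1 ∣ v ∧
        {n : ℕ | Nat.totient n = v} =
          (fun m => p * m) '' {m : ℕ | Nat.totient m = v / (p - 1)}} : ℝ) ≤ ε * V x := by
  classical
  obtain ⟨C₀, hC₀, hstr⟩ := struct
  set η : ℝ := min (1 / 4) ε with hη
  have hη0 : 0 < η := lt_min (by norm_num) hε
  have hpar := exists_param 1 one_pos C₀ η ε hC₀ (fun M x T' =>
    |(V x : ℝ) - ∑ D ∈ DF M 0 1 T', pc1 (x / (D : ℝ))| ≤ ε * V x ∧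
    ∀ s : Finset ℕ, (∀ v ∈ s, IsTot v ∧ (v : ℝ) ≤ x ∧ ¬ Str M x T' η v) →
      (s.card : ℝ) ≤ ε * V x) (hstr η ε hη0 (min_le_left _ _) hε) 1
  filter_upwards [hpar, eventually_ge_atTop (1 : ℝ)] with x hx hx1
  obtain ⟨M, T', ⟨-, h2⟩, -, -⟩ := hx
  have hx0 : 0 ≤ x := by linarith only [hx1]
  have hset : {v : ℕ | IsTotient v ∧ (v : ℝ) ≤ x ∧ ¬ ∃ p : ℕ, p.Prime ∧
        x ^ (1 - ε) ≤ (p : ℝ) ∧ p - 1 ∣ v ∧
        {n : ℕ | Nat.totient n = v} =
          (fun m => p * m) '' {m : ℕ | Nat.totient m = v / (p - 1)}} ⊆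
      ((tots x).filter (fun v => ¬ Str M x T' η v) : Finset ℕ) := by
    rintro v ⟨h3, h4, h5⟩
    rw [Finset.mem_coe, Finset.mem_filter, mem_tots hx0]
    refine ⟨⟨h3, h4⟩, fun h6 => h5 ?_⟩
    obtain ⟨p, D, hp, hD, hvD, hDp, hpx, hpre⟩ := h6
    have hp2 := hp.two_le
    have hdiv : v / (p - 1) = D := by
      rw [hvD]
      exact Nat.mul_div_cancel_left D (by omega)
    refine ⟨p, hp, ?_, ⟨D, hvD⟩, ?_⟩
    · refine le_trans (Real.rpow_le_rpow_of_exponent_le hx1 ?_) hpx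
      have : η ≤ ε := min_le_right _ _
      linarith only [this]
    · rw [hdiv, hvD]
      exact preimages_eq hp (mem_DF_pos hD) hDp (by rw [← hvD]; exact hpre)
  have h3 := h2 ((tots x).filter (fun v => ¬ Str M x T' η v)) (fun v hv => by
    rw [Finset.mem_filter, mem_tots hx0] at hv
    exact ⟨hv.1.1, hv.1.2, hv.2⟩)
  refine le_trans ?_ h3
  have h4 := Set.ncard_le_ncard hset (Finset.finite_toSet _)
  rw [Set.ncard_coe_finset] at h4
  exact_mod_cast h4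

end Vale.Agent.P031.ML
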