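import Vale.Agent.P031.H928.Defs2
import Vale.Agent.P031.H928.Final
import Vale.Agent.P031.H951.Top
import Vale.Agent.P031.H577.AP

/-!
# P031: the large prime of a totient, in the notation of the final statement
-/

namespace Vale.Agent.P031.ML

open Filter Topology

/-- the large prime is unique -/
theorem top_unique (v p p' : ℕ) (hv : IsTotient v) (h : IsTop v p) (h' : IsTop v p') : p = p' := by
  obtain ⟨n, hn, hnv⟩ := hv
  obtain ⟨h1, -, h3⟩ := h.2 n hn hnv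
  obtain ⟨h1', -, h3'⟩ := h'.2 n hn hnv
  exact le_antisymm (h3' p h.1 h1) (h3 p' h'.1 h1')

/-- almost every totient has a large prime -/
theorem top_structure (ε : ℝ) (hε : 0 < ε) :
    Tendsto (fun x : ℝ => (N (fun v : ℕ => ∃ p : ℕ, IsTop v p ∧ (v : ℝ) ^ (1 - ε) ≤ (p : ℝ) ∧
      IsTotient (v / (p - 1)) ∧ ∀ n : ℕ, 1 ≤ n → (Nat.totient n = v ↔
        ∃ m : ℕ, 1 ≤ m ∧ Nat.totient m = v / (p - 1) ∧ n = p * m)) x : ℝ) / V x) atTop (𝓝 1) :=
  H577.structure_thm ε hε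

/-- the large prime and the cofactor are asymptotically independent -/
theorem top_indep (R : Set ℕ) (δ : ℝ)
    (hR : Tendsto (fun y : ℝ => (primesIn R y : ℝ) / primesIn Set.univ y) atTop (𝓝 δ))
    (c : ℝ) (hc : 0 < c) (ε : ℝ) (hε : 0 < ε) : ∀ᶠ x : ℝ in atTop, ∀ D : Set ℕ,
      |(N (fun v => ∃ p : ℕ, IsTop v p ∧ p ∈ R ∧ v / (p - 1) ∈ D) (c * x) : ℝ) -
        c * δ * N (fun v => ∃ p : ℕ, IsTop v p ∧ v / (p - 1) ∈ D) x| ≤ ε * V x :=
  H577.indep_thm R δ hR c hc ε hε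

/-- the large prime is equidistributed in residue classes -/
theorem top_ap (q a : ℕ) (hq : 1 ≤ q) (ha : Nat.Coprime a q) (c : ℝ) (hc : 0 < c) :
    Tendsto (fun x : ℝ => (N (fun v : ℕ => ∃ p : ℕ, IsTop v p ∧ p ≡ a [MOD q]) (c * x) : ℝ) / V x)
      atTop (𝓝 (c / (q.totient : ℝ))) :=
  H577.ap_thm q a hq ha c hc

end Vale.Agent.P031.ML
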